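import Vale.Agent.P240.R2.H401.NL5b
import Vale.Agent.P240.R2.H401.NL5c

/-!
Hilbert 90 package: `hilb_odd`, `hilb_two`, `fix_of_norm_one`, `eq_one_of_norm_one`, `aut_pow`,
`aut_eq_star`.
-/
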